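import Vale.Agent.P197.Bdl.B1

/-!
# Saxl's conjecture

For every `m ≥ 1` and every Young diagram `ν` with `m (m + 1) / 2` cells, the Kronecker coefficient
of two copies of the staircase `(m, m - 1, ..., 1)` and `ν` is positive.
-/

namespace Vale.Agent.Results.P197.Saxl

open Vale.Agent.P197

/-- Saxl's conjecture: the tensor square of the Specht module of the staircase
`(m, m - 1, ..., 1)` contains every irreducible representation. -/
theorem result : ∀ m : ℕ, 1 ≤ m → ∀ ν : YoungDiagram, ν.card = m * (m + 1) / 2 →
    0 < kron (m * (m + 1) / 2) (staircase m) (staircase m) ν :=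
  fun m _ ν hν => saxl m ν hν

end Vale.Agent.Results.P197.Saxl
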